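import Vale.Agent.P207Z.Char.Defs

/-!
# P207: directional derivatives, local linear operators, jets with a parameter
-/

set_option linter.all false

open Set Filter Topology Metric MeasureTheory Asymptotics
open scoped ContDiff

noncomputable section

namespace Vale.Agent.P207Z

open Lift

variable {E V G Y : Type} [NormedAddCommGroup E] [NormedSpace ℝ E]
  [NormedAddCommGroup V] [NormedSpace ℝ V] [NormedAddCommGroup G] [NormedSpace ℝ G]
  [NormedAddCommGroup Y] [NormedSpace ℝ Y] {K : ℕ} {iS : E →L[ℝ] V}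

namespace AlgX

variable {u u' : E → ℝ} {y : E}

theorem dd_congr (e : u =ᶠ[𝓝 y] u') (v : E) : dd v u =ᶠ[𝓝 y] dd v u' :=
  (e.fderiv (𝕜 := ℝ)).mono fun x hx => congrArg (fun A : E →L[ℝ] ℝ => A v) hx

theorem it_congr (e : u =ᶠ[𝓝 y] u') (v : E) (i : ℕ) : (dd v)^[i] u =ᶠ[𝓝 y] (dd v)^[i] u' := by
  induction i with
  | zero => exact e
  | succ i ih =>
    rw [Function.iterate_succ_apply', Function.iterate_succ_apply']
    exact dd_congr ih v

theorem it_zero (v : E) (i : ℕ) : (dd v)^[i] (fun _ => 0) = fun _ => 0 :=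
  Function.iterate_fixed (funext fun y => by simp [dd]) i

theorem dd_add (h : ContDiffAt ℝ ∞ u y) (h' : ContDiffAt ℝ ∞ u' y) (v : E) :
    dd v (fun x => u x + u' x) =ᶠ[𝓝 y] fun x => dd v u x + dd v u' x := by
  filter_upwards [(cda h 1).eventually (by simp), (cda h' 1).eventually (by simp)] with x h1 h2
  rw [dd, fderiv_fun_add (h1.differentiableAt (by simp)) (h2.differentiableAt (by simp))]
  rfl

theorem dd_mul (c : ℝ) (u : E → ℝ) (v : E) : dd v (fun x => c * u x) = fun x => c * dd v u x :=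
  funext fun x => congrArg (fun A : E →L[ℝ] ℝ => A v)
    (congrFun (fderiv_const_smul_field (𝕜 := ℝ) (f := u) c) x)

theorem dd_pb {j : ℕ} {A : ℝ} (h : Pb (j + 1) u y A) (v : E) :
    Pb j (dd v u) y (‖ContinuousLinearMap.apply ℝ ℝ v‖ * A) :=
  h.fderiv.clm (ContinuousLinearMap.apply ℝ ℝ v)

/-- a local linear operator of order `r` at the point `y` -/
structure Op (y : E) (r : ℕ) (T : (E → Y) → E → ℝ) : Prop where
  add : ∀ L L', ContDiffAt ℝ ∞ L y → ContDiffAt ℝ ∞ L' y →
    T (fun x => L x + L' x) =ᶠ[𝓝 y] fun x => T L x + T L' x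
  smul : ∀ (c : ℝ) L, ContDiffAt ℝ ∞ L y → T (fun x => c • L x) =ᶠ[𝓝 y] fun x => c * T L x
  bd : ∀ j, ∃ C : ℝ, 0 ≤ C ∧ ∀ L A, Pb (j + r) L y A → Pb j (T L) y (C * A)

variable {r r' : ℕ} {T : (E → Y) → E → ℝ}

theorem Op.sm (h : Op y r T) {L : E → Y} (hL : ContDiffAt ℝ ∞ L y) : ContDiffAt ℝ ∞ (T L) y := by
  obtain ⟨C, -, hC⟩ := h.bd 0
  obtain ⟨A, hA⟩ := pb_exists hL (0 + r)
  exact (hC L A hA).sm

theorem Op.mono (h : Op y r T) (hr : r ≤ r') : Op y r' T :=
  ⟨h.add, h.smul, fun j => (h.bd j).imp fun C hC =>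
    ⟨hC.1, fun L A hA => hC.2 L A (hA.mono (by omega) le_rfl)⟩⟩

theorem Op.dd (h : Op y r T) (v : E) : Op y (r + 1) fun L => dd v (T L) := by
  refine ⟨fun L L' hL hL' => (dd_congr (h.add L L' hL hL') v).trans
    (dd_add (h.sm hL) (h.sm hL') v), fun c L hL => ?_, fun j => ?_⟩
  · rw [← dd_mul]
    exact dd_congr (h.smul c L hL) v
  · obtain ⟨C, h0, hC⟩ := h.bd (j + 1)
    refine ⟨‖ContinuousLinearMap.apply ℝ ℝ v‖ * C, by positivity, fun L A hA => ?_⟩
    rw [mul_assoc]
    exact dd_pb (hC L A (hA.mono (by omega) le_rfl)) v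

theorem Op.it (h : Op y r T) (v : E) (i : ℕ) : Op y (r + i) fun L => (P207Z.dd v)^[i] (T L) := by
  induction i with
  | zero => exact h
  | succ i ih =>
    simp only [Function.iterate_succ_apply']
    exact ih.dd v

theorem Op.sum {ι : Type} (s : Finset ι) {T : ι → (E → Y) → E → ℝ} (h : ∀ i ∈ s, Op y r (T i)) :
    Op y r fun L x => ∑ i ∈ s, T i L x := by
  refine ⟨fun L L' hL hL' => ?_, fun c L hL => ?_, fun j => ?_⟩
  · filter_upwards [(eventually_all_finset s).2 fun i hi => (h i hi).add L L' hL hL'] with x hx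
    rw [← Finset.sum_add_distrib]
    exact Finset.sum_congr rfl hx
  · filter_upwards [(eventually_all_finset s).2 fun i hi => (h i hi).smul c L hL] with x hx
    rw [Finset.mul_sum]
    exact Finset.sum_congr rfl hx
  · choose! C h0 hC using fun i hi => (h i hi).bd j
    refine ⟨∑ i ∈ s, C i, Finset.sum_nonneg h0, fun L A hA => ?_⟩
    rw [Finset.sum_mul]
    exact Pb.sum s fun i hi => hC i hi L A hA

theorem op_id (y : E) : Op y 0 fun u : E → ℝ => u :=
  ⟨fun _ _ _ _ => EventuallyEq.rfl, fun _ _ _ => EventuallyEq.rfl,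
    fun _ => ⟨1, zero_le_one, fun _ _ h => by rwa [one_mul]⟩⟩

theorem op_app {J : E → Y} (hJ : ContDiffAt ℝ ∞ J y) :
    Op y 0 fun (L : E → Y →L[ℝ] ℝ) x => L x (J x) := by
  refine ⟨fun _ _ _ _ => EventuallyEq.rfl, fun _ _ _ => EventuallyEq.rfl, fun j => ?_⟩
  obtain ⟨B, hB⟩ := pb_exists hJ j
  have := hB.nonneg
  exact ⟨2 ^ j * B, by positivity, fun L A hA => (hA.app hB).le (le_of_eq (by ring))⟩

theorem it_sm (h : ContDiff ℝ ∞ u) (v : E) (i : ℕ) : ContDiff ℝ ∞ ((dd v)^[i] u) :=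
  contDiff_iff_contDiffAt.2 fun y => ((op_id y).it v i).sm h.contDiffAt

theorem it_add (h : ContDiff ℝ ∞ u) (h' : ContDiff ℝ ∞ u') (v : E) (i : ℕ) (y : E) :
    (dd v)^[i] (fun x => u x + u' x) y = (dd v)^[i] u y + (dd v)^[i] u' y :=
  (((op_id y).it v i).add u u' h.contDiffAt h'.contDiffAt).eq_of_nhds

theorem dd_sum {ι : Type} (s : Finset ι) {u : ι → E → ℝ} (h : ∀ i, ContDiff ℝ ∞ (u i)) (v y : E) :
    dd v (fun x => ∑ i ∈ s, u i x) y = ∑ i ∈ s, dd v (u i) y := by
  rw [dd, fderiv_fun_sum fun i _ => (h i).differentiable (by simp) y,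
    ContinuousLinearMap.sum_apply]
  rfl

/-- the derivative of a jet is the jet of the derivative -/
theorem swap_der {f : V → G} (hf : ContDiff ℝ ∞ f) (i : ℕ) (p u : V) (a : Fin i → V) :
    fderiv ℝ (iteratedFDeriv ℝ i f) p u a = iteratedFDeriv ℝ i (fun q => fderiv ℝ f q u) p a := by
  have h1 := (ContinuousLinearMap.apply ℝ G u).iteratedFDeriv_comp_left
    (hf.fderiv_right (m := ∞) le_rfl).contDiffAt (x := p) (nat_le_inf i)
  have h2 := iteratedFDeriv_succ_apply_right (𝕜 := ℝ) (f := f) (x := p) (Fin.snoc a u)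
  rw [Fin.init_snoc, Fin.snoc_last, Fin.snoc_eq_cons_rotate,
    JetBx.perm_sym (cda hf.contDiffAt _), iteratedFDeriv_succ_apply_left] at h2
  exact h2.trans (DFunLike.congr_fun h1 a).symm

theorem dd_comm (h : ContDiff ℝ ∞ u) (v v' : E) : dd v (dd v' u) = dd v' (dd v u) := by
  funext y
  have h1 := (h.fderiv_right (m := ∞) le_rfl).differentiable (by simp) y
  have e : ∀ a a' : E, dd a (dd a' u) y = fderiv ℝ (fderiv ℝ u) y a a' := fun a a' => by
    have := fderiv_clm_apply h1 (differentiableAt_const a')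
    rw [fderiv_fun_const, Pi.zero_apply, ContinuousLinearMap.comp_zero, zero_add] at this
    exact congrArg (fun A : E →L[ℝ] ℝ => A a) this
  rw [e, e]
  exact (cda h.contDiffAt 2).isSymmSndFDerivAt (by simp) v v'

theorem it_comm (h : ContDiff ℝ ∞ u) (v v' : E) (i : ℕ) :
    (dd v)^[i] (dd v' u) = dd v' ((dd v)^[i] u) := by
  induction i with
  | zero => rfl
  | succ i ih =>
    rw [Function.iterate_succ_apply', Function.iterate_succ_apply', ih, dd_comm (it_sm h v i)]

/-- smooth in the two variables -/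
def Sj (g : E → V → G) : Prop := ContDiff ℝ ∞ fun p : E × V => g p.1 p.2

/-- the derivative in the first variable -/
def pd (v : E) (g : E → V → G) (x : E) (z : V) : G :=
  fderiv ℝ (fun p : E × V => g p.1 p.2) (x, z) (v, 0)

variable {g g' : E → V → G}

theorem Sj.slice (h : Sj g) (x : E) : ContDiff ℝ ∞ (g x) :=
  h.comp (contDiff_const.prodMk contDiff_id)

theorem Sj.pd (h : Sj g) (v : E) : Sj (pd v g) :=
  (h.fderiv_right (m := ∞) le_rfl).clm_apply contDiff_const

theorem sj_const {l : V → G} (h : ContDiff ℝ ∞ l) : Sj fun _ : E => l := h.comp contDiff_snd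

theorem pd_const {l : V → G} (h : ContDiff ℝ ∞ l) (v : E) :
    pd v (fun _ : E => l) = fun _ _ => 0 := by
  funext x z
  have := ((h.differentiable (by simp) z).hasFDerivAt.comp (x, z)
    (hasFDerivAt_snd (𝕜 := ℝ) (p := (x, z)))).fderiv
  exact (congrArg (fun A : E × V →L[ℝ] G => A (v, 0)) this).trans (map_zero (fderiv ℝ l z))

theorem Sj.der (h : Sj g) (i : ℕ) (x : E) (z : V) : iteratedFDeriv ℝ i (g x) z =
    (iteratedFDeriv ℝ i (fun p : E × V => g p.1 p.2) (x, z)).compContinuousLinearMap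
      fun _ => ContinuousLinearMap.inr ℝ E V := by
  have := iteratedFDeriv_affine (ContinuousLinearMap.inr ℝ E V) (x, 0) isOpen_univ
    (h.of_le (nat_le_inf i)).contDiffOn (a := z) (mem_univ _) le_rfl
  simpa using this

theorem Sj.jet_eq (h : Sj g) (i : ℕ) : (fun x => iteratedFDeriv ℝ i (g x) (iS x)) = fun x =>
    ContinuousMultilinearMap.compContinuousLinearMapL (fun _ => ContinuousLinearMap.inr ℝ E V)
      (iteratedFDeriv ℝ i (fun p : E × V => g p.1 p.2)
        (((ContinuousLinearMap.id ℝ E).prod iS) x)) := funext fun x => h.der i x _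

theorem Sj.jet (h : Sj g) : ContDiff ℝ ∞ fun x => jet K (g x) (iS x) := by
  refine contDiff_pi.2 fun i => ?_
  have := h.jet_eq (iS := iS) i
  simp only [P207Z.jet]
  rw [this]
  exact (ContinuousLinearMap.contDiff _).comp
    ((h.iteratedFDeriv_right (m := ∞) (by exact_mod_cast le_top)).comp
      (ContinuousLinearMap.contDiff _))

theorem Sj.fderiv_jet (h : Sj g) (x v : E) :
    fderiv ℝ (fun x => P207Z.jet K (g x) (iS x)) x v =
      P207Z.jet K (AlgX.pd v g x) (iS x) + shf K (iS v) (P207Z.jet (K + 1) (g x) (iS x)) := by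
  have h0 := (h.jet (K := K) (iS := iS)).differentiable (by simp) x
  funext i
  ext a
  have h1 := ((hasFDerivAt_pi'.1 h0.hasFDerivAt) i).fderiv
  have h2 := ((ContinuousMultilinearMap.compContinuousLinearMapL (F := G)
    fun _ : Fin i => ContinuousLinearMap.inr ℝ E V).hasFDerivAt.comp x
    (((h.iteratedFDeriv_right (m := ∞) (i := i) (by exact_mod_cast le_top)).differentiable
      (by simp) _).hasFDerivAt.comp x ((ContinuousLinearMap.id ℝ E).prod iS).hasFDerivAt)).fderiv
  have h3 : fderiv ℝ (fun x => P207Z.jet K (g x) (iS x)) x v i a =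
      fderiv ℝ (iteratedFDeriv ℝ i fun p : E × V => g p.1 p.2) (x, iS x) (v, iS v)
        fun j => (0, a j) :=
    congrArg (fun A : E →L[ℝ] V [×(i : ℕ)]→L[ℝ] G => A v a)
      (h1.symm.trans ((congrArg (fun f => fderiv ℝ f x) (h.jet_eq i)).trans h2))
  rw [h3, show (v, iS v) = (v, 0) + (0, iS v) by simp, map_add, ContinuousMultilinearMap.add_apply,
    swap_der h]
  refine congrArg₂ _ (DFunLike.congr_fun ((h.pd v).der i x (iS x)) a).symm ?_
  refine Eq.trans ?_ (DFunLike.congr_fun (h.der (i + 1) x (iS x)) (Fin.cons (iS v) a)).symm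
  rfl

end AlgX

open AlgX

theorem shf_jet' {l : V → G} {q : V} (hl : ContDiffAt ℝ ∞ l q) (u : V) :
    shf K u (jet (K + 1) l q) = fderiv ℝ (jet K l) q u := by
  have := fderiv_pi (𝕜 := ℝ) (x := q) (φ := fun (i : Fin (K + 1)) => iteratedFDeriv ℝ i l)
    fun i => (cda hl (i + 1)).differentiableAt_iteratedFDeriv (by exact_mod_cast Nat.lt_succ_self _)
  exact (congrArg (fun A : V →L[ℝ] Jet K V G => A u) this).symm

theorem AlgX.td_opr {L : E → Jet K V G →L[ℝ] ℝ} (hL : ContDiff ℝ ∞ L) {g : E → V → G} (h : Sj g)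
    (v x : E) : opr iS (td iS v L) g x + opr iS L (pd v g) x = dd v (opr iS L g) x := by
  have h1 := fderiv_clm_apply (hL.differentiable (by simp) x)
    ((h.jet (K := K) (iS := iS)).differentiable (by simp) x)
  have h2 : dd v (opr iS L g) x = L x (fderiv ℝ (fun x => jet K (g x) (iS x)) x v) +
      fderiv ℝ L x v (jet K (g x) (iS x)) := congrArg (fun A : E →L[ℝ] ℝ => A v) h1
  rw [h2, h.fderiv_jet, map_add]
  show fderiv ℝ L x v (jet K (g x) (iS x)) + L x (shf K (iS v) (jet (K + 1) (g x) (iS x))) +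
    L x (jet K (pd v g x) (iS x)) = _
  ring

end Vale.Agent.P207Z
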